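import Vale.Agent.P200E.Tow

namespace Vale.Agent.P200E

open MvPolynomial TensorProduct

universe u

theorem Top_hom_sub {k : Type*} [Field k] {n b : ℕ}
    (ρ : MvPolynomial (Fin n) k →ₐ[k] MvPolynomial (Fin n) k)
    (hρ : ∀ p, (ρ (X p)).IsHomogeneous 1) {g : MvPolynomial (Fin n) k}
    (hg : g.IsHomogeneous (b + 1)) :
    ∃ W : Fin n → MvPolynomial (Fin n) k, (∀ p, (W p).IsHomogeneous b) ∧
      ρ g = g + ∑ p, W p * (X p - ρ (X p)) := by
  have h1 : ∀ g : MvPolynomial (Fin n) k,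
      ρ g - g ∈ Ideal.span (Set.range fun p => X p - ρ (X p)) := by
    intro g
    induction g using MvPolynomial.induction_on with
    | C r =>
      have : ρ (C r) = C r := ρ.commutes r
      rw [this, sub_self]
      exact zero_mem _
    | add x y hx hy =>
      have : ρ (x + y) - (x + y) = (ρ x - x) + (ρ y - y) := by rw [map_add]; ring
      rw [this]
      exact add_mem hx hy
    | mul_X x p hx =>
      have : ρ (x * X p) - x * X p = (ρ x - x) * X p - ρ x * (X p - ρ (X p)) := by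
        rw [map_mul]; ring
      rw [this]
      exact sub_mem (Ideal.mul_mem_right _ _ hx)
        (Ideal.mul_mem_left _ _ (Ideal.subset_span ⟨p, rfl⟩))
  obtain ⟨V, hV⟩ := Ideal.mem_span_range_iff_exists_fun.1 (h1 g)
  have h2 : (ρ g).IsHomogeneous (b + 1) := by
    have h3 : ρ = aeval fun p => ρ (X p) := by
      ext1 p; simp
    have := hg.aeval (fun p => ρ (X p)) hρ
    rw [one_mul, ← h3] at this
    exact this
  refine ⟨fun p => homogeneousComponent b (V p), fun p => homogeneousComponent_isHomogeneous _ _, ?_⟩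
  have h4 := congrArg (homogeneousComponent (b + 1)) hV
  rw [homogeneousComponent_eq_self (h2.sub hg), map_sum] at h4
  rw [← sub_eq_iff_eq_add', ← h4]
  refine Finset.sum_congr rfl fun p _ => ?_
  rw [mul_comm, P200.comp_mul_hom ((isHomogeneous_X k p).sub (hρ p)), if_pos (by omega),
    Nat.add_sub_cancel, mul_comm]

open P200 in
theorem Top_core {K k D : Type*} [Field K] [Field k] [Algebra K k] [DivisionRing D] [Algebra K D]
    [Algebra k D] [IsScalarTower K k D] {n c b : ℕ} (hc : c ≤ n)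
    (f : Fin c → MvPolynomial (Fin n) K) (hf : ∀ j, (f j).IsHomogeneous (b + 1))
    (I : Ideal (MvPolynomial (Fin n) K))
    (hI : ∀ j, f j ∈ I) (lam : Fin n → Fin c → k)
    (hlam : ∀ i : Fin c, lam (Fin.castLE hc i) = Pi.single i 1)
    (ρ : MvPolynomial (Fin n) k →ₐ[k] MvPolynomial (Fin c) k)
    (hρ : ∀ p, ρ (X p) = ∑ l, C (lam p l) * X l)
    (γ τ w : Fin c → Fin c → D)
    (hcomm : ∀ a a', a ≠ a' → ∀ m l, Commute (γ a m) (γ a' l))
    (h1 : ∀ a, (∑ m, γ a m ⊗ₜ[k] (X m : MvPolynomial (Fin c) k)) ^ (b + 1) =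
      ∑ j, τ a j ⊗ₜ[k] ρ (map (algebraMap K k) (f j)))
    (hw : ∀ a a', ∑ m, γ a m * w m a' = if a = a' then 1 else 0) :
    ∃ J : Set (Fin n →₀ ℕ), (∀ β ∈ J, ∀ i, β + Finsupp.single i 1 ∈ J) ∧
      (∀ i : Fin n, (i : ℕ) < c → Finsupp.single i (b + 1) ∈ J) ∧
      ∀ d (T : Finset (Fin n →₀ ℕ)), (∀ β, β ∈ T ↔ β ∈ J ∧ β.degree = d) →
        T.card = Module.finrank K (ipart I d) := by
  classical
  let θ : k →ₐ[K] D := IsScalarTower.toAlgHom K k D
  have hθ : ∀ r d, Commute (θ r) d := fun r d => Algebra.commutes r d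
  let ψ : MvPolynomial (Fin n) k →+* D ⊗[K] MvPolynomial (Fin n) K :=
    (Algebra.TensorProduct.map θ (AlgHom.id K _)).toRingHom.comp
      (algebraTensorAlgEquiv K k).symm.toRingEquiv.toRingHom
  have ψm : ∀ u r, ψ (monomial u r) = θ r ⊗ₜ monomial u 1 := by
    intro u r; simp [ψ]
  have ψX : ∀ p, ψ (X p) = 1 ⊗ₜ X p := by
    intro p; simp [ψ]
  have ψC : ∀ r, ψ (C r) = θ r ⊗ₜ 1 := fun r => ψm 0 r
  have ψmap : ∀ g, ψ (map (algebraMap K k) g) = 1 ⊗ₜ g := by
    intro g; simp [ψ]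
  have ψcomm : ∀ g y, Commute (ψ g) y := by
    intro g y
    induction g using MvPolynomial.induction_on' with
    | monomial u r =>
      rw [ψm]
      induction y using TensorProduct.induction_on with
      | zero => simp
      | tmul d s => simp [Commute, SemiconjBy, (hθ r d).eq, mul_comm]
      | add x y hx hy => exact hx.add_right hy
    | add p q hp hq => rw [map_add]; exact hp.add_left hq
  have ψhom : ∀ d g, g.IsHomogeneous d → ψ g ∈ Bd K D n d := by
    intro d g hg
    rw [g.as_sum, map_sum]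
    refine Submodule.sum_mem _ fun u hu => ?_
    rw [ψm]
    exact Submodule.tmul_mem_baseChange_of_mem _
      (isHomogeneous_monomial _ (mem_expo.mp (mem_hom_iff.mp hg u hu)))
  let ρ' : MvPolynomial (Fin n) k →ₐ[k] MvPolynomial (Fin n) k := (rename (Fin.castLE hc)).comp ρ
  have hρ' : ∀ p, ρ' (X p) = ∑ l, C (lam p l) * X (Fin.castLE hc l) := by
    intro p; simp [ρ', hρ, map_sum]
  have hρ1 : ∀ p, (ρ' (X p)).IsHomogeneous 1 := fun p => by
    rw [hρ']; exact IsHomogeneous.sum _ _ _ fun l _ => isHomogeneous_C_mul_X _ _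
  let N : Fin c → D ⊗[K] MvPolynomial (Fin n) K := fun a => ∑ m, γ a m ⊗ₜ X (Fin.castLE hc m)
  let M : Fin n → D ⊗[K] MvPolynomial (Fin n) K := fun p =>
    if h : (p : ℕ) < c then N ⟨p, h⟩ else ψ (X p - ρ' (X p))
  have hM : ∀ i j, Commute (M i) (M j) := by
    intro i j
    simp only [M]
    split_ifs with hi hj
    · by_cases hij : (⟨i, hi⟩ : Fin c) = ⟨j, hj⟩
      · rw [hij]
      · refine Commute.sum_left _ _ _ fun m _ => Commute.sum_right _ _ _ fun l _ => ?_
        simp [Commute, SemiconjBy, (hcomm _ _ hij m l).eq, mul_comm]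
    · exact (ψcomm _ _).symm
    · exact ψcomm _ _
    · exact ψcomm _ _
  have hspan : ∀ m : Fin c, (1 : D) ⊗ₜ[K] (X (Fin.castLE hc m) : MvPolynomial (Fin n) K) ∈
      Submodule.span D (Set.range M) := by
    intro m
    obtain ⟨u, hu⟩ := left_inverse γ w hw m
    have : (1 : D) ⊗ₜ[K] (X (Fin.castLE hc m) : MvPolynomial (Fin n) K) = ∑ a, u a • N a := by
      simp only [N, Finset.smul_sum, smul_tmul', smul_eq_mul]
      rw [Finset.sum_comm]
      simp [← sum_tmul, hu, ite_tmul]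
    rw [this]
    refine Submodule.sum_mem _ fun a _ => Submodule.smul_mem _ _ (Submodule.subset_span
      ⟨Fin.castLE hc a, ?_⟩)
    simp [M]
  let ψA : MvPolynomial (Fin n) k →ₐ[k] D ⊗[K] MvPolynomial (Fin n) K :=
    { ψ with commutes' := fun r => ψC r }
  let Φ : D ⊗[k] MvPolynomial (Fin c) k →ₐ[k] D ⊗[K] MvPolynomial (Fin n) K :=
    Algebra.TensorProduct.lift Algebra.TensorProduct.includeLeft
      (ψA.comp (rename (Fin.castLE hc))) fun x y => (ψcomm _ _).symm
  have hΦ : ∀ (x : D) (g : MvPolynomial (Fin c) k),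
      Φ (x ⊗ₜ[k] g) = x • ψ (rename (Fin.castLE hc) g) := by
    intro x g
    rw [smul_eq_tmul_mul]
    rfl
  choose W hW1 hW2 using fun j => Top_hom_sub ρ' hρ1 ((hf j).map (algebraMap K k))
  refine frame M hM I ?_ ?_ c (fun _ => b) ?_
  · intro i
    simp only [M]
    split_ifs
    · exact Submodule.sum_mem _ fun m _ =>
        Submodule.tmul_mem_baseChange_of_mem _ (isHomogeneous_X _ _)
    · exact ψhom _ _ ((isHomogeneous_X _ _).sub (hρ1 i))
  · intro p
    by_cases hp : (p : ℕ) < c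
    · exact hspan ⟨p, hp⟩
    · have : (1 : D) ⊗ₜ[K] (X p : MvPolynomial (Fin n) K) =
          M p + ∑ l, θ (lam p l) • ((1 : D) ⊗ₜ[K] X (Fin.castLE hc l)) := by
        simp [M, hp, hρ', ψX, ψC, map_sum, smul_tmul']
      rw [this]
      exact add_mem (Submodule.subset_span ⟨p, rfl⟩)
        (Submodule.sum_mem _ fun l _ => Submodule.smul_mem _ _ (hspan l))
  · intro i hi
    let a : Fin c := ⟨i, hi⟩
    refine ⟨∑ j, τ a j ⊗ₜ f j, Submodule.sum_mem _ fun j _ =>
      Submodule.tmul_mem_baseChange_of_mem _ ⟨hI j, hf j⟩,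
      fun p => ∑ j, τ a j • ψ (W j p), fun p => Submodule.sum_mem _ fun j _ =>
        Submodule.smul_mem _ _ (ψhom _ _ (hW1 j p)), ?_⟩
    have e1 : M i ^ (b + 1) = ∑ j, τ a j • ψ (ρ' (map (algebraMap K k) (f j))) := by
      have := congrArg Φ (h1 a)
      rw [map_pow, map_sum, map_sum] at this
      simp only [hΦ, rename_X, ψX, smul_tmul', smul_eq_mul, mul_one] at this
      simp only [M, hi, dif_pos, N]
      exact this
    have e2 : ∀ j, ψ (ρ' (map (algebraMap K k) (f j))) = 1 ⊗ₜ f j +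
        ∑ p ∈ Finset.univ.filter (fun p : Fin n => c ≤ p), ψ (W j p) * M p := by
      intro j
      rw [hW2 j, map_add, map_sum, Finset.sum_filter, ψmap]
      congr 1
      refine Finset.sum_congr rfl fun p _ => ?_
      split_ifs with hp
      · simp only [M, dif_neg (not_lt.mpr hp), map_mul]
      · have : X p - ρ' (X p) = 0 := by
          obtain ⟨p', rfl⟩ : ∃ p' : Fin c, p = Fin.castLE hc p' := ⟨⟨p, not_le.mp hp⟩, rfl⟩
          simp [hρ', hlam, Pi.single_apply, apply_ite C]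
        rw [this, mul_zero, map_zero]
    rw [e1]
    simp only [e2, smul_add, Finset.sum_add_distrib, smul_tmul', smul_eq_mul, mul_one,
      Finset.smul_sum, Finset.sum_mul]
    congr 1
    rw [Finset.sum_comm]
    refine Finset.sum_congr rfl fun p _ => Finset.sum_congr rfl fun j _ => ?_
    rw [smul_eq_tmul_mul, smul_eq_tmul_mul, mul_assoc]

theorem egh_equal {K : Type u} [Field K] {n c a : ℕ} (hc : c ≤ n) (ha : 2 ≤ a)
    (f : Fin c → MvPolynomial (Fin n) K) (hf : ∀ i, (f i).IsHomogeneous a) (hreg : P200.IsReg f)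
    (I : Ideal (MvPolynomial (Fin n) K)) (hI : ∀ i, f i ∈ I) :
    ∃ J : Set (Fin n →₀ ℕ), (∀ β ∈ J, ∀ i, β + Finsupp.single i 1 ∈ J) ∧
      (∀ i : Fin n, (i : ℕ) < c → Finsupp.single i a ∈ J) ∧
      ∀ d (T : Finset (Fin n →₀ ℕ)), (∀ β, β ∈ T ↔ β ∈ J ∧ β.degree = d) →
        T.card = Module.finrank K (P200.ipart I d) := by
  obtain ⟨b, rfl⟩ : ∃ b, a = b + 1 := ⟨a - 1, by omega⟩
  let k := AlgebraicClosure K
  have h1 := hreg.baseChange (k := k)
  obtain ⟨lam, hlam, h2⟩ := P200.elim hc h1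
  obtain ⟨ζ, hζ⟩ := exists_QR (k := k) (a := b + 1) (by omega)
  have h3 : ∀ j, (P200.linSub lam (map (algebraMap K k) (f j))).IsHomogeneous (b + 1) := by
    intro j
    have := ((hf j).map (algebraMap K k)).aeval (fun j => ∑ l, C (lam j l) * X l)
      (n := 1) fun i => IsHomogeneous.sum _ _ _ fun l _ => isHomogeneous_C_mul_X _ _
    rw [one_mul] at this
    exact this
  obtain ⟨k', D, i1, i2, i3, i4, i5, i6, i7, γ, τ, w, hcomm, r1, hw⟩ :=
    towerA ha hζ _ h3 h2 c le_rfl
  let alg : Algebra K D := ((algebraMap k D).comp (algebraMap K k)).toAlgebra'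
    fun r d => Algebra.commutes _ d
  haveI : IsScalarTower K k D := IsScalarTower.of_algebraMap_eq fun _ => rfl
  exact Top_core hc f hf I hI lam hlam (P200.linSub lam) (fun p => by simp [P200.linSub])
    γ τ w hcomm r1 hw

end Vale.Agent.P200E
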